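import Mathlib

namespace Vale.Agent.Lib.P162

open Finset BigOperators

/-- One Thorp shuffle of `2 * h` cards with coins `c`. Positions are the residues mod `2 * h`
(`0, …, 2h - 1`, top to bottom). The cards in positions `i` and `h + i` (`i < h`) go to positions
`2 i` and `2 i + 1`; the coin `c i` decides which of the two goes to `2 i + 1`. -/
def move (h : ℕ) (c : ZMod h → Bool) (p : ZMod (2 * h)) : ZMod (2 * h) :=
  2 * p + if xor (decide (h ≤ p.val)) (c (ZMod.cast p)) then 1 else 0

/-- The probability that one Thorp shuffle (`h` independent fair coins) moves the cards in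
positions `z j` to the positions `y j`. -/
noncomputable def stepProb (h k : ℕ) [NeZero h] (z y : Fin k → ZMod (2 * h)) : ℝ :=
  ((univ.filter fun c : ZMod h → Bool => ∀ j, move h c (z j) = y j).card : ℝ) / 2 ^ h

/-- Transition matrix of the positions of `k` tracked cards under one Thorp shuffle. -/
noncomputable def Kmat (h k : ℕ) [NeZero h] :
    Matrix (Fin k → ZMod (2 * h)) (Fin k → ZMod (2 * h)) ℝ :=
  fun z y => stepProb h k z y

/-- Uniform law on the placements of `k` distinct cards in `2 * h` positions. -/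
noncomputable def unifInj (h k : ℕ) (y : Fin k → ZMod (2 * h)) : ℝ :=
  if Function.Injective y then 1 / ((2 * h).descFactorial k : ℝ) else 0

/-- free one-card kernel: `p ↦ 2 p` or `2 p + 1`, with probability `1/2` each -/
noncomputable def Wmat (h : ℕ) [NeZero h] : Matrix (ZMod (2 * h)) (ZMod (2 * h)) ℝ :=
  fun p q => (if q = 2 * p then (1/2 : ℝ) else 0) + (if q = 2 * p + 1 then (1/2 : ℝ) else 0)

/-- free `k`-card kernel: the cards move independently -/
noncomputable def Wk (h k : ℕ) [NeZero h] :
    Matrix (Fin k → ZMod (2 * h)) (Fin k → ZMod (2 * h)) ℝ :=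
  fun z y => ∏ j, Wmat h (z j) (y j)

/-- two tracked cards share a coin (same pair index) -/
def bad (h k : ℕ) (z : Fin k → ZMod (2 * h)) : Prop :=
  ∃ j j', j ≠ j' ∧ (ZMod.cast (z j) : ZMod h) = ZMod.cast (z j')

/-! Auxiliary equation and congruence lemmas. They are stated here so that the generated
equation and congruence lemmas of the definitions above are stored in this file only. -/

theorem defs_aux_move (h : ℕ) (c : ZMod h → Bool) (p : ZMod (2 * h)) :
    move h c p = 2 * p + if xor (decide (h ≤ p.val)) (c (ZMod.cast p)) then 1 else 0 := by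
  rw [move]

theorem defs_aux_stepProb (h k : ℕ) [NeZero h] (z y : Fin k → ZMod (2 * h)) :
    stepProb h k z y
      = ((univ.filter fun c : ZMod h → Bool => ∀ j, move h c (z j) = y j).card : ℝ) / 2 ^ h := by
  rw [stepProb]

theorem defs_aux_Kmat (h k : ℕ) [NeZero h] (z y : Fin k → ZMod (2 * h)) :
    Kmat h k z y = stepProb h k z y := by
  rw [Kmat]

theorem defs_aux_unifInj (h k : ℕ) (y : Fin k → ZMod (2 * h)) :
    unifInj h k y = if Function.Injective y then 1 / ((2 * h).descFactorial k : ℝ) else 0 := by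
  rw [unifInj]

theorem defs_aux_Wmat (h : ℕ) [NeZero h] (p q : ZMod (2 * h)) :
    Wmat h p q
      = (if q = 2 * p then (1/2 : ℝ) else 0) + (if q = 2 * p + 1 then (1/2 : ℝ) else 0) := by
  rw [Wmat]

theorem defs_aux_Wk (h k : ℕ) [NeZero h] (z y : Fin k → ZMod (2 * h)) :
    Wk h k z y = ∏ j, Wmat h (z j) (y j) := by
  rw [Wk]

theorem defs_aux_bad (h k : ℕ) (z : Fin k → ZMod (2 * h)) :
    bad h k z ↔ ∃ j j', j ≠ j' ∧ (ZMod.cast (z j) : ZMod h) = ZMod.cast (z j') := by
  rw [bad]

theorem defs_aux_congr_stepProb (h k : ℕ) [NeZero h] (z y : Fin k → ZMod (2 * h)) (a : ℝ)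
    (ha : a = 0) : stepProb h k z y + a = stepProb h k z y := by simp [ha]

theorem defs_aux_congr_Kmat (h k : ℕ) [NeZero h] (z y : Fin k → ZMod (2 * h)) (a : ℝ)
    (ha : a = 0) : Kmat h k z y + a = Kmat h k z y := by simp [ha]

theorem defs_aux_congr_Wmat (h : ℕ) [NeZero h] (z y : ZMod (2 * h)) (a : ℝ) (ha : a = 0) :
    Wmat h z y + a = Wmat h z y := by simp [ha]

theorem defs_aux_congr_Wk (h k : ℕ) [NeZero h] (z y : Fin k → ZMod (2 * h)) (a : ℝ)
    (ha : a = 0) : Wk h k z y + a = Wk h k z y := by simp [ha]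

end Vale.Agent.Lib.P162
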