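import Mathlib
import Vale.Agent.Lib.P162.Defs

/-!
Thorp shuffle, tracked cards added one at a time: auxiliary definitions.
A `(j+1)`-tuple `z` of positions is read as the new card `z 0` followed by the `j` old cards
`Fin.tail z`.
-/

namespace Vale.Agent.Lib.P162

open Finset BigOperators

/-- Product kernel on `(j+1)`-tuples: coordinate `0` (the new card) moves by the free one-card
kernel `Wmat`, the other `j` coordinates move as the `j`-card chain, independently of it. -/
noncomputable def Bmat (h j : ℕ) [NeZero h] :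
    Matrix (Fin (j + 1) → ZMod (2 * h)) (Fin (j + 1) → ZMod (2 * h)) ℝ :=
  fun z y => Wmat h (z 0) (y 0) * Kmat h j (Fin.tail z) (Fin.tail y)

/-- The new card (coordinate `0`) shares a coin with one of the old cards. -/
def newBad (h j : ℕ) (z : Fin (j + 1) → ZMod (2 * h)) : Prop :=
  ∃ i : Fin j, (ZMod.cast (z 0) : ZMod h) = ZMod.cast (z i.succ)

/-- The law at time `t` of the `j` old cards started at `Fin.tail z`, with the new card
(coordinate `0`) placed uniformly on the `2 * h - j` positions not occupied by the old cards. -/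
noncomputable def resamp (h j : ℕ) [NeZero h] (t : ℕ) (z y : Fin (j + 1) → ZMod (2 * h)) : ℝ :=
  if ∀ i : Fin j, y 0 ≠ y i.succ then
    (Kmat h j ^ t) (Fin.tail z) (Fin.tail y) / ((2 * h : ℝ) - j) else 0

/-- The `l1` distance between the law at time `t` of the `(j+1)`-card chain started at `z` and
its resampled version `resamp`. -/
noncomputable def defect (h j : ℕ) [NeZero h] (t : ℕ) (z : Fin (j + 1) → ZMod (2 * h)) : ℝ :=
  ∑ y, |(Kmat h (j + 1) ^ t) z y - resamp h j t z y|

theorem Bmat_apply (h j : ℕ) [NeZero h] (z y : Fin (j + 1) → ZMod (2 * h)) :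
    Bmat h j z y = Wmat h (z 0) (y 0) * Kmat h j (Fin.tail z) (Fin.tail y) := rfl

theorem newBad_iff (h j : ℕ) (z : Fin (j + 1) → ZMod (2 * h)) :
    newBad h j z ↔ ∃ i : Fin j, (ZMod.cast (z 0) : ZMod h) = ZMod.cast (z i.succ) := Iff.rfl

theorem resamp_apply (h j : ℕ) [NeZero h] (t : ℕ) (z y : Fin (j + 1) → ZMod (2 * h)) :
    resamp h j t z y = if ∀ i : Fin j, y 0 ≠ y i.succ then
      (Kmat h j ^ t) (Fin.tail z) (Fin.tail y) / ((2 * h : ℝ) - j) else 0 := rfl

theorem defect_apply (h j : ℕ) [NeZero h] (t : ℕ) (z : Fin (j + 1) → ZMod (2 * h)) :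
    defect h j t z = ∑ y, |(Kmat h (j + 1) ^ t) z y - resamp h j t z y| := rfl

theorem Kmat_apply_r (h k : ℕ) [NeZero h] (z y : Fin k → ZMod (2 * h)) :
    Kmat h k z y = stepProb h k z y := rfl

/-! Auxiliary equation and congruence lemmas. They are stated here so that the generated
equation and congruence lemmas of the definitions above are stored in this file only. -/

theorem rdefs_aux_Bmat (h j : ℕ) [NeZero h] (z y : Fin (j + 1) → ZMod (2 * h)) :
    Bmat h j z y = Wmat h (z 0) (y 0) * Kmat h j (Fin.tail z) (Fin.tail y) := by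
  rw [Bmat]

theorem rdefs_aux_newBad (h j : ℕ) (z : Fin (j + 1) → ZMod (2 * h)) :
    newBad h j z ↔ ∃ i : Fin j, (ZMod.cast (z 0) : ZMod h) = ZMod.cast (z i.succ) := by
  rw [newBad]

theorem rdefs_aux_resamp (h j : ℕ) [NeZero h] (t : ℕ) (z y : Fin (j + 1) → ZMod (2 * h)) :
    resamp h j t z y = if ∀ i : Fin j, y 0 ≠ y i.succ then
      (Kmat h j ^ t) (Fin.tail z) (Fin.tail y) / ((2 * h : ℝ) - j) else 0 := by
  rw [resamp]

theorem rdefs_aux_defect (h j : ℕ) [NeZero h] (t : ℕ) (z : Fin (j + 1) → ZMod (2 * h)) :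
    defect h j t z = ∑ y, |(Kmat h (j + 1) ^ t) z y - resamp h j t z y| := by
  rw [defect]

theorem rdefs_aux_congr_Bmat (h j : ℕ) [NeZero h] (z y : Fin (j + 1) → ZMod (2 * h)) (a : ℝ)
    (ha : a = 0) : Bmat h j z y + a = Bmat h j z y := by simp [ha]

theorem rdefs_aux_congr_resamp (h j : ℕ) [NeZero h] (t : ℕ) (z y : Fin (j + 1) → ZMod (2 * h))
    (a : ℝ) (ha : a = 0) : resamp h j t z y + a = resamp h j t z y := by simp [ha]

theorem rdefs_aux_congr_defect (h j : ℕ) [NeZero h] (t : ℕ) (z : Fin (j + 1) → ZMod (2 * h))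
    (a : ℝ) (ha : a = 0) : defect h j t z + a = defect h j t z := by simp [ha]

end Vale.Agent.Lib.P162
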