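import Mathlib
import Vale.Agent.Lib.P162.Defs
import Vale.Agent.Lib.P162.RDefs

/-!
Thorp shuffle, two conditionally independent copies of the new card: auxiliary definitions.
A tuple u of j + 2 positions is read as walker one u 0, walker two u 1, followed by the
j old cards Fin.tail (Fin.tail u). The two walkers may sit in the same position.
-/

namespace Vale.Agent.Lib.P162

open Finset BigOperators

/-- Walker one followed by the old cards (walker two dropped). -/
def dropTwo {α : Type*} {j : ℕ} (u : Fin (j + 2) → α) : Fin (j + 1) → α :=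
  Fin.cons (u 0) (Fin.tail (Fin.tail u))

/-- Two-walker kernel: the old cards move as the j-card chain; given their move, each walker
moves as the new card of the chain of j + 1 cards moves given the move of the old cards, and the
two walkers do so independently of each other. -/
noncomputable def Qmat (h j : ℕ) [NeZero h] :
    Matrix (Fin (j + 2) → ZMod (2 * h)) (Fin (j + 2) → ZMod (2 * h)) ℝ :=
  fun u y => Kmat h (j + 1) (dropTwo u) (dropTwo y) * Kmat h (j + 1) (Fin.tail u) (Fin.tail y)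
    / Kmat h j (Fin.tail (Fin.tail u)) (Fin.tail (Fin.tail y))

/-- The probability that the two walkers, started from u, sit in the same position after t
steps of the two-walker kernel. -/
noncomputable def Dcol (h j : ℕ) [NeZero h] (t : ℕ) (u : Fin (j + 2) → ZMod (2 * h)) : ℝ :=
  ∑ v : Fin j → ZMod (2 * h), ∑ q : ZMod (2 * h),
    (Qmat h j ^ t) u (Fin.cons q (Fin.cons q v) : Fin (j + 2) → ZMod (2 * h))

theorem dropTwo_apply {α : Type*} {j : ℕ} (u : Fin (j + 2) → α) :
    dropTwo u = Fin.cons (u 0) (Fin.tail (Fin.tail u)) := rfl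

theorem dropTwo_cons {α : Type*} {j : ℕ} (q q' : α) (v : Fin j → α) :
    dropTwo (Fin.cons q (Fin.cons q' v) : Fin (j + 2) → α) = Fin.cons q v := rfl

theorem tail_cons_cons {α : Type*} {j : ℕ} (q q' : α) (v : Fin j → α) :
    Fin.tail (Fin.cons q (Fin.cons q' v) : Fin (j + 2) → α) = Fin.cons q' v := rfl

theorem tail_tail_cons_cons {α : Type*} {j : ℕ} (q q' : α) (v : Fin j → α) :
    Fin.tail (Fin.tail (Fin.cons q (Fin.cons q' v) : Fin (j + 2) → α)) = v := rfl

theorem Qmat_apply (h j : ℕ) [NeZero h] (u y : Fin (j + 2) → ZMod (2 * h)) :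
    Qmat h j u y = Kmat h (j + 1) (dropTwo u) (dropTwo y)
      * Kmat h (j + 1) (Fin.tail u) (Fin.tail y)
      / Kmat h j (Fin.tail (Fin.tail u)) (Fin.tail (Fin.tail y)) := rfl

theorem Qmat_cons (h j : ℕ) [NeZero h] (q q' q1 q1' : ZMod (2 * h))
    (v v1 : Fin j → ZMod (2 * h)) :
    Qmat h j (Fin.cons q (Fin.cons q' v)) (Fin.cons q1 (Fin.cons q1' v1))
      = Kmat h (j + 1) (Fin.cons q v) (Fin.cons q1 v1)
        * Kmat h (j + 1) (Fin.cons q' v) (Fin.cons q1' v1) / Kmat h j v v1 := rfl

theorem Dcol_apply (h j : ℕ) [NeZero h] (t : ℕ) (u : Fin (j + 2) → ZMod (2 * h)) :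
    Dcol h j t u = ∑ v : Fin j → ZMod (2 * h), ∑ q : ZMod (2 * h),
      (Qmat h j ^ t) u (Fin.cons q (Fin.cons q v) : Fin (j + 2) → ZMod (2 * h)) := rfl

/-! Auxiliary equation and congruence lemmas. They are stated here so that the generated
equation and congruence lemmas of the definitions above are stored in this file only. -/

theorem cvdefs_aux_dropTwo {α : Type*} {j : ℕ} (u : Fin (j + 2) → α) :
    dropTwo u = Fin.cons (u 0) (Fin.tail (Fin.tail u)) := by
  rw [dropTwo]

theorem cvdefs_aux_Qmat (h j : ℕ) [NeZero h] (u y : Fin (j + 2) → ZMod (2 * h)) :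
    Qmat h j u y = Kmat h (j + 1) (dropTwo u) (dropTwo y)
      * Kmat h (j + 1) (Fin.tail u) (Fin.tail y)
      / Kmat h j (Fin.tail (Fin.tail u)) (Fin.tail (Fin.tail y)) := by
  rw [Qmat]

theorem cvdefs_aux_Dcol (h j : ℕ) [NeZero h] (t : ℕ) (u : Fin (j + 2) → ZMod (2 * h)) :
    Dcol h j t u = ∑ v : Fin j → ZMod (2 * h), ∑ q : ZMod (2 * h),
      (Qmat h j ^ t) u (Fin.cons q (Fin.cons q v) : Fin (j + 2) → ZMod (2 * h)) := by
  rw [Dcol]

theorem cvdefs_aux_congr_dropTwo {j : ℕ} (u : Fin (j + 2) → ℕ) (a : ℕ) (ha : a = 0) :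
    dropTwo u 0 + a = dropTwo u 0 := by simp [ha]

theorem cvdefs_aux_congr_Qmat (h j : ℕ) [NeZero h] (u y : Fin (j + 2) → ZMod (2 * h)) (a : ℝ)
    (ha : a = 0) : Qmat h j u y + a = Qmat h j u y := by simp [ha]

theorem cvdefs_aux_congr_Dcol (h j : ℕ) [NeZero h] (t : ℕ) (u : Fin (j + 2) → ZMod (2 * h))
    (a : ℝ) (ha : a = 0) : Dcol h j t u + a = Dcol h j t u := by simp [ha]

end Vale.Agent.Lib.P162
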