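import Mathlib
import Vale.Agent.Lib.P162.Defs

namespace Vale.Agent.Lib.P162

open Finset BigOperators

/-- The position of the card that starts in position `p` after `T` Thorp shuffles of `2 * h`
cards, the `i`-th shuffle (counted from `0`) using the coins `cs i`. -/
def shuffles (h : ℕ) : (T : ℕ) → (Fin T → ZMod h → Bool) → ZMod (2 * h) → ZMod (2 * h)
  | 0, _, p => p
  | T + 1, cs, p => shuffles h T (fun i => cs i.succ) (move h (cs 0) p)

/-- The joint law of the positions, after `T` Thorp shuffles (all `h * T` coins fair and
independent), of the `k` cards that start in the positions `x 0, …, x (k - 1)`: the probability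
that the card from position `x j` is in position `y j` for every `j`. -/
noncomputable def trackedLaw (h k T : ℕ) [NeZero h] (x y : Fin k → ZMod (2 * h)) : ℝ :=
  ((univ.filter fun cs : Fin T → ZMod h → Bool => ∀ j, shuffles h T cs (x j) = y j).card : ℝ)
    / 2 ^ (h * T)

/-! Auxiliary equation and congruence lemmas, stated here so that the generated equation and
congruence lemmas of the two definitions above are stored in this file only. -/

theorem law_aux_shuffles_zero (h : ℕ) (cs : Fin 0 → ZMod h → Bool) (p : ZMod (2 * h)) :
    shuffles h 0 cs p = p := by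
  rw [shuffles]

theorem law_aux_shuffles_succ (h T : ℕ) (cs : Fin (T + 1) → ZMod h → Bool) (p : ZMod (2 * h)) :
    shuffles h (T + 1) cs p = shuffles h T (fun i => cs i.succ) (move h (cs 0) p) := by
  rw [shuffles]

theorem law_aux_shuffles_unfold (h T : ℕ) (cs : Fin T → ZMod h → Bool) (p : ZMod (2 * h))
    (hT : T = 0) : shuffles h T cs p = p := by
  subst hT
  unfold shuffles
  rfl

theorem law_aux_trackedLaw (h k T : ℕ) [NeZero h] (x y : Fin k → ZMod (2 * h)) :
    trackedLaw h k T x y
      = ((univ.filter fun cs : Fin T → ZMod h → Bool => ∀ j, shuffles h T cs (x j) = y j).card : ℝ)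
        / 2 ^ (h * T) := by
  rw [trackedLaw]

theorem law_aux_congr_trackedLaw (h k T : ℕ) [NeZero h] (z y : Fin k → ZMod (2 * h)) (a : ℝ)
    (ha : a = 0) : trackedLaw h k T z y + a = trackedLaw h k T z y := by simp [ha]

end Vale.Agent.Lib.P162
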